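import Vale.Agent.P167.N.Kit
import Vale.Agent.P167.N.H174.CT.Three
import Vale.Agent.P167.N.H476.Q.Two
import Vale.Agent.P167.N.KitQ
import Vale.Agent.P167.N.QC.FzPoly
import Vale.Agent.P167.H174.CT.Bad3

/-! port of Vale.Agent.P167.H174.CT.Bad3 (q < 1) -/

set_option autoImplicit false

namespace Vale.Agent.P167.N.H174.CT

open Vale.Agent.P167.H174.CT Vale.Agent.P167.H174

open Finset Filter Topology MeasureTheory Vale.Agent.P167.FK Vale.Agent.P167.FKA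

open Vale.Agent.P167.E6 (wiredOpen edges Encloses IsPolygon Approx pt)

open Vale.Agent.P167.H718 (Dq etaQ)

open Vale.Agent.P167.H166 (mem_Bq)

open Vale.Agent.P167.QE (ExW cexW)

open Vale.Agent.P167.H411 (exn)

open Vale.Agent.P153.R2.Final (dom circ toC)

/-- Three strands near each other, or two strands near the boundary, in one of the boxes, for the thick
configurations. -/
theorem pr_both {q : ℝ} (hQ : Kit (√q)) (hRSW : RSW (√q)) : ∃ (κ : ℤ) (α β C : ℝ), 4 ≤ κ ∧ 0 < α ∧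
    0 < β ∧ 0 < C ∧ ∀ (n : ℕ) (p : ZMod n → ℤ × ℤ) (S : Finset (ℤ × ℤ)) (k : ℕ), IsPolygon p →
      Encloses p S → 0 < k → k + 1 < n → ∀ (cl : ℕ → ℕ), Monotone cl → ∀ (M : ℕ), (∀ i < n, cl i < M) →
      ∀ (ρ : ℤ), 0 ≤ ρ → (∀ i j, i < n → j < n → cl i = cl j →
        nm (H192.ro (p i) - H192.ro (p j)) ≤ ρ) →
      ∀ (Z : Finset (ℤ × ℤ)) (col : ℤ × ℤ → Bool) (r R : ℤ) (h : ℕ), 1 ≤ r → κ * r + ρ + 8 ≤ R →
      (∀ z ∈ Z, NearC p k z R (col z)) →
      Pr (√q) (Dq S p k) (etaQ p k)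
        {ω | ∃ z ∈ Z, rep (Dq S p k) (thk p k S z R (col z)) ω ∈ T32 (Dq S p k) (col z) z r R h} ≤
        Z.card * (C * 4 ^ (2 * M + 1) * ((((h : ℝ) + 1) / R) ^ α + (((h : ℝ) + 1) / R) ^ β)) := by
  classical
  have hQ0 : 0 < √q := hQ.pos
  obtain ⟨κ₁, α, C₁, hκ₁, hα, hC₁, hlaw₁⟩ := three_law hQ hRSW
  obtain ⟨κ₂, β, C₂, hκ₂, hβ, hC₂, hlaw₂⟩ := N.H476.Q.two_law hQ hRSW
  refine ⟨max κ₁ κ₂, α, β, max C₁ C₂, le_max_of_le_left hκ₁, hα, hβ, lt_max_of_lt_left hC₁, ?_⟩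
  intro n p S k hp hS hk0 hk cl hcl M hM ρ hρ0 hρ Z col r R h hr hR hZ
  set κ := max κ₁ κ₂ with hκ
  have hκ4 : 4 ≤ κ := le_max_of_le_left hκ₁
  have hR4 : 4 * r ≤ κ * r := mul_le_mul_of_nonneg_right hκ4 (by omega)
  have hk1 : κ₁ * r ≤ κ * r := mul_le_mul_of_nonneg_right (le_max_left _ _) (by omega)
  have hk2 : κ₂ * r ≤ κ * r := mul_le_mul_of_nonneg_right (le_max_right _ _) (by omega)
  have hR0 : (0 : ℝ) < R := by exact_mod_cast (by omega : 0 < R)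
  have h1 : Pr (√q) (Dq S p k) (etaQ p k)
      {ω | ∃ z ∈ Z, rep (Dq S p k) (thk p k S z R (col z)) ω ∈ T32 (Dq S p k) (col z) z r R h} ≤
      ∑ z ∈ Z, Pr (√q) (Dq S p k) (etaQ p k)
        {ω | rep (Dq S p k) (thk p k S z R (col z)) ω ∈ T32 (Dq S p k) (col z) z r R h} := by
    unfold Pr
    rw [← Ex_sum]
    refine Ex_mono hQ0 fun T _ => ?_
    by_cases h2 : ∃ z ∈ Z, rep (Dq S p k) (thk p k S z R (col z)) (cf (Dq S p k) (etaQ p k) T) ∈
        T32 (Dq S p k) (col z) z r R h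
    · obtain ⟨z, hz, h3⟩ := h2
      rw [Set.indicator_of_mem (show cf (Dq S p k) (etaQ p k) T ∈
        {ω | ∃ z ∈ Z, rep (Dq S p k) (thk p k S z R (col z)) ω ∈ T32 (Dq S p k) (col z) z r R h}
          from ⟨z, hz, h3⟩)]
      have h4 := Finset.single_le_sum (s := Z) (f := fun z =>
        ({ω | rep (Dq S p k) (thk p k S z R (col z)) ω ∈
            T32 (Dq S p k) (col z) z r R h}.indicator (1 : Cfg → ℝ)
          (cf (Dq S p k) (etaQ p k) T)))
        (fun z _ => Set.indicator_nonneg (fun _ _ => zero_le_one) _) hz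
      refine le_trans (le_of_eq ?_) h4
      rw [Pi.one_apply, Set.indicator_of_mem (by exact h3), Pi.one_apply]
    · rw [Set.indicator_of_notMem (by exact h2)]
      exact Finset.sum_nonneg fun z _ => Set.indicator_nonneg (fun _ _ => zero_le_one) _
  refine h1.trans ?_
  rw [← nsmul_eq_mul]
  refine Finset.sum_le_card_nsmul _ _ _ fun z hz => ?_
  obtain ⟨P, hP, hF⟩ := frz1_thk hp hS hk hcl hM hρ z (κ * r) R (col z) (by omega) hρ0 (by omega)
    (hZ z hz)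
  have hFz : N.QC.Fz 2 z (R - 1) (Dq S p k) (thk p k S z R (col z)) :=
    (N.QC.fz_thk hp hS hk0 (by omega) (by omega) (hZ z hz)).mono (by omega)
  have a1 := hlaw₁ z r (κ * r) R h hr hk1 (by omega) (Dq S p k) (thk p k S z R (col z)) good_thk
    (!(col z)) P hF hFz (fun _ => 1) (fun _ => zero_le_one) (fun _ _ _ => rfl)
  have a2 := hlaw₂ z r (κ * r) R h hr hk2 (by omega) (Dq S p k) (thk p k S z R (col z)) good_thk
    (!(col z)) P hF hFz (fun _ => 1) (fun _ => zero_le_one) (fun _ _ _ => rfl)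
  rw [Ex_const hQ0, mul_one] at a1 a2
  simp only [one_mul] at a1 a2
  have h3 := sameM_thk hp hS hQ0 (hZ z hz) ((T32 (Dq S p k) (col z) z r R h).indicator 1)
  have h4 : Pr (√q) (Dq S p k) (etaQ p k)
      {ω | rep (Dq S p k) (thk p k S z R (col z)) ω ∈ T32 (Dq S p k) (col z) z r R h} =
      Ex (√q) (Dq S p k) (thk p k S z R (col z))
        ((T32 (Dq S p k) (col z) z r R h).indicator 1) := by
    rw [h3]
    rfl
  rw [h4]
  have h5 : Ex (√q) (Dq S p k) (thk p k S z R (col z))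
      ((T32 (Dq S p k) (col z) z r R h).indicator 1) ≤
      Ex (√q) (Dq S p k) (thk p k S z R (col z)) (fun ω => (T3 z r R h).indicator 1 ω) +
      Ex (√q) (Dq S p k) (thk p k S z R (col z))
        (fun ω => (Vale.Agent.P167.H476.Q.T2 (Dq S p k) (!(col z)) z r R h).indicator 1 ω) := by
    rw [← Ex_add]
    refine Ex_mono hQ0 fun T _ => ?_
    show (T3 z r R h ∪ Vale.Agent.P167.H476.Q.T2 (Dq S p k) (!(col z)) z r R h).indicator (1 : Cfg → ℝ) _ ≤ _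
    have h6 := Set.indicator_nonneg (s := T3 z r R h) (f := (1 : Cfg → ℝ))
      (fun _ _ => zero_le_one) (cf (Dq S p k) (thk p k S z R (col z)) T)
    have h7 := Set.indicator_nonneg (s := Vale.Agent.P167.H476.Q.T2 (Dq S p k) (!(col z)) z r R h)
      (f := (1 : Cfg → ℝ)) (fun _ _ => zero_le_one) (cf (Dq S p k) (thk p k S z R (col z)) T)
    by_cases h8 : cf (Dq S p k) (thk p k S z R (col z)) T ∈
        T3 z r R h ∪ Vale.Agent.P167.H476.Q.T2 (Dq S p k) (!(col z)) z r R h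
    · rw [Set.indicator_of_mem h8]
      rcases h8 with h8 | h8
      · rw [Set.indicator_of_mem h8]
        linarith
      · rw [Set.indicator_of_mem (s := Vale.Agent.P167.H476.Q.T2 _ _ _ _ _ _) h8]
        linarith
    · rw [Set.indicator_of_notMem h8]
      linarith
  have hx : 0 ≤ ((h : ℝ) + 1) / R := by positivity
  have hxa := Real.rpow_nonneg hx α
  have hxb := Real.rpow_nonneg hx β
  have h6 : (2 : ℝ) ^ P.card ≤ 4 ^ (2 * M + 1) :=
    (pow_le_pow_left₀ (by norm_num) (by norm_num) _).trans (pow_le_pow_right₀ (by norm_num) hP)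
  have h7 : (4 : ℝ) ^ P.card ≤ 4 ^ (2 * M + 1) := pow_le_pow_right₀ (by norm_num) hP
  have b1 : C₁ * 2 ^ P.card ≤ max C₁ C₂ * 4 ^ (2 * M + 1) :=
    mul_le_mul (le_max_left _ _) h6 (by positivity) (by positivity)
  have b2 : C₂ * 4 ^ P.card ≤ max C₁ C₂ * 4 ^ (2 * M + 1) :=
    mul_le_mul (le_max_right _ _) h7 (by positivity) (by positivity)
  have b3 := mul_le_mul_of_nonneg_right b1 hxa
  have b4 := mul_le_mul_of_nonneg_right b2 hxb
  calc _ ≤ _ := h5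
    _ ≤ _ := add_le_add a1 a2
    _ ≤ max C₁ C₂ * 4 ^ (2 * M + 1) * ((((h : ℝ) + 1) / R) ^ α + (((h : ℝ) + 1) / R) ^ β) := by
        rw [mul_add]
        exact add_le_add b3 b4

open Classical in
/-- **Three strands, or two strands and the boundary, at stopping indices.** The conditional
probability, at a stopping index, of an event which implies three strands, or two strands near the
boundary, in a box of the family is at most `ε` except for histories of weight at most `ε`. -/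
theorem bad_small2 {q : ℝ} (hq1 : Kit (√q)) (hq4 : q ≤ 4) : ∃ K : ℝ, 8 ≤ K ∧
    ∀ (Φ : (ℝ × ℝ) ≃ₜ (ℝ × ℝ)) (δ : ℕ → ℝ) (N k : ℕ → ℕ) (p : ∀ n, ZMod (N n) → ℤ × ℤ)
      (S : ℕ → Finset (ℤ × ℤ)), Approx Φ δ N k p S → ∀ ρ L : ℝ, 0 < ρ → 0 < L →
    ∃ R₁ : ℝ, 0 < R₁ ∧ ∀ R₂ : ℝ, 0 < R₂ → R₂ ≤ R₁ → ∀ ε : ℝ, 0 < ε → ∃ η : ℝ, 0 < η ∧
      ∀ᶠ n in atTop, ∃ (Z : Finset (ℤ × ℤ)) (col : ℤ × ℤ → Bool),
        (∀ z ∈ Z, Far Φ (ρ / 2) ((δ n : ℂ) * ps z) ∧
          NearC (p n) (k n) z ⌊R₂ / δ n⌋ (col z)) ∧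
        (∀ v : ℤ × ℤ, ‖(δ n : ℂ) * ps v‖ ≤ L → Far Φ ρ ((δ n : ℂ) * ps v) →
          ∃ z ∈ Z, v ∈ FK.Bq z ⌊R₂ / (K * δ n)⌋) ∧
        ∀ (ψn : ℕ → ℂ → ℂ) (κ₁ : Finset (Sym2 (ℤ × ℤ)) → ℕ), (exn δ N k p S ψn n).StopIx κ₁ →
          ∀ E : Finset (Sym2 (ℤ × ℤ)) → Set Cfg, Hist (exn δ N k p S ψn n) κ₁ E →
          (∀ A ⊆ edges (S n), H192.cfg (wiredOpen (p n) (k n) A) ∈ E A → ∃ z ∈ Z,
            rep (Dq (S n) (p n) (k n)) (thk (p n) (k n) (S n) z ⌊R₂ / δ n⌋ (col z))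
              (H192.cfg (wiredOpen (p n) (k n) A)) ∈
                T32 (Dq (S n) (p n) (k n)) (col z) z (2 * ⌊R₂ / (K * δ n)⌋) ⌊R₂ / δ n⌋
                  ⌊η / δ n⌋₊) →
          ExW (exn δ N k p S ψn n).C (fun A => Final.weight q (p n) (k n) (S n) A)
            ({A | ε < Pr (√q) (Dq (S n) (p n) (k n) \ H161.Rd (p n) (k n) (S n) A (κ₁ A))
              (H192.cfg (wiredOpen (p n) (k n) A)) (E A)}.indicator 1) ≤ ε := by
  have hq0 : 0 < q := Real.sqrt_pos.1 hq1.pos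
  have hQ := hq1
  have hRSW := hq1.rsw
  obtain ⟨κ, α, β, C, hκ, hα, hβ, hC, hpr⟩ := pr_both (q := q) hQ hRSW
  have hκr : (4 : ℝ) ≤ κ := by exact_mod_cast hκ
  refine ⟨4 * κ, by linarith, ?_⟩
  intro Φ δ N k p S h ρ L hρ hL
  set K : ℝ := 4 * κ with hK
  have hK0 : 0 < K := by linarith
  obtain ⟨R₁, hR₁, hcol⟩ := exists_col h (half_pos hρ)
  refine ⟨min R₁ (ρ / 2), by positivity, ?_⟩
  intro R₂ hR₂ hR₂' ε hε
  have hR₂₁ : R₂ ≤ R₁ := hR₂'.trans (min_le_left _ _)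
  have hR₂ρ : R₂ ≤ ρ / 2 := hR₂'.trans (min_le_right _ _)
  obtain ⟨M, hM⟩ := H161.blocks Φ (show (0 : ℝ) < R₂ / 48 by positivity)
  set m : ℤ := ⌈4 * L * K / R₂⌉ + 1 with hm
  set G : Finset (ℤ × ℤ) := Finset.Icc (-m) m ×ˢ Finset.Icc (-m) m with hG
  set B : ℝ := G.card * (C * 4 ^ (2 * M + 1)) + 1 with hB
  have hB0 : 0 < B := by positivity
  -- the contact scale
  obtain ⟨η, hη, hη2⟩ : ∃ η : ℝ, 0 < η ∧ (4 * η / R₂) ^ α + (4 * η / R₂) ^ β ≤ ε ^ 2 / B :=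
    exists_eta hα hβ (by positivity)
  refine ⟨η, hη, ?_⟩
  obtain ⟨h1, h2, h3⟩ := h
  have hkN2 : ∀ᶠ n in atTop, k n + 1 < N n := two_ev ⟨h1, h2, h3⟩
  filter_upwards [hcol, hkN2,
    h2.eventually (gt_mem_nhds (show (0 : ℝ) < min (R₂ / (24 * K)) η by positivity)),
    h3 (R₂ / 48) (by positivity)] with n hn1 hn2 hn3 hn4
  obtain ⟨s, hs, hs0, -, hsN, hsd⟩ := hn4
  obtain ⟨hδ, hk0, hkN, hp, hS⟩ := h1 n
  obtain ⟨cl, hcl, hclM, hclρ⟩ := hM (δ n) (N n) (p n) s hδ hs hs0 hsN hsd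
  have hδ1 : δ n * (24 * K) < R₂ := by
    have := hn3.trans_le (min_le_left _ _)
    rwa [lt_div_iff₀ (by positivity)] at this
  have hδη : δ n < η := hn3.trans_le (min_le_right _ _)
  set r : ℤ := ⌊R₂ / (K * δ n)⌋ with hr
  set R : ℤ := ⌊R₂ / δ n⌋ with hR
  set ρl : ℤ := ⌊6 * (R₂ / 48) / δ n⌋ with hρl
  have b1 := Int.floor_le (R₂ / (K * δ n))
  have b2 := Int.lt_floor_add_one (R₂ / (K * δ n))
  have b3 := Int.floor_le (R₂ / δ n)
  have b4 := Int.lt_floor_add_one (R₂ / δ n)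
  have b5 := Int.floor_le (6 * (R₂ / 48) / δ n)
  rw [← hr] at b1 b2
  rw [← hR] at b3 b4
  rw [← hρl] at b5
  set Y : ℝ := R₂ / δ n with hY
  have hY1 : 24 * K < Y := by
    rw [hY, lt_div_iff₀ hδ]
    linarith
  have e1 : R₂ / (K * δ n) = Y / K := by rw [hY, div_div, mul_comm K]
  have e2 : 6 * (R₂ / 48) / δ n = Y / 8 := by rw [hY]; field_simp; norm_num
  rw [e1] at b1 b2
  rw [e2] at b5
  have hYK : 24 < Y / K := by rw [lt_div_iff₀ hK0]; linarith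
  have hr1 : 1 ≤ r := by
    have : (0 : ℝ) < r := by linarith
    have : 0 < r := by exact_mod_cast this
    omega
  have hρ0 : 0 ≤ ρl := Int.floor_nonneg.2 (by positivity)
  have hκr2 : (κ : ℝ) * (2 * r) ≤ Y / 2 := by
    have h5 : (κ : ℝ) * r ≤ κ * (Y / K) := mul_le_mul_of_nonneg_left b1 (by linarith)
    have h6 : (κ : ℝ) * (Y / K) = Y / 4 := by rw [hK]; field_simp
    linarith
  have hrR : κ * (2 * r) + ρl + 8 ≤ R := by
    have : (κ : ℝ) * (2 * r) + ρl + 8 ≤ R := by nlinarith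
    exact_mod_cast this
  have hRδ : (R : ℝ) * δ n ≤ R₂ := by
    have := mul_le_mul_of_nonneg_right b3 hδ.le
    rwa [hY, div_mul_cancel₀ _ hδ.ne'] at this
  -- the colours
  have hcol' : ∀ z : ℤ × ℤ, ∃ c, Far Φ (ρ / 2) ((δ n : ℂ) * ps z) → NearC (p n) (k n) z R c := by
    intro z
    by_cases hz : Far Φ (ρ / 2) ((δ n : ℂ) * ps z)
    · obtain ⟨c, hc⟩ := hn1 z hz R (by linarith)
      exact ⟨c, fun _ => hc⟩
    · exact ⟨true, fun h => absurd h hz⟩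
  choose col hcol2 using hcol'
  set Z : Finset (ℤ × ℤ) := (G.image fun x => (r * x.1, r * x.2)).filter
    fun z => Far Φ (ρ / 2) ((δ n : ℂ) * ps z) with hZ
  have hZfar : ∀ z ∈ Z, Far Φ (ρ / 2) ((δ n : ℂ) * ps z) := fun z hz => (Finset.mem_filter.1 hz).2
  refine ⟨Z, col, fun z hz => ⟨hZfar z hz, hcol2 z (hZfar z hz)⟩, ?_, ?_⟩
  · -- cover
    intro v hvL hvF
    have hnm : ((nm v : ℤ) : ℝ) ≤ 2 * L / δ n := by
      have h5 := le_ps_dist v (0, 0)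
      rw [ps_zero, dist_zero_right] at h5
      have h6 : v - (0, 0) = v := sub_zero v
      rw [h6] at h5
      rw [norm_mul, Complex.norm_real, Real.norm_of_nonneg hδ.le] at hvL
      rw [le_div_iff₀ hδ]
      nlinarith
    have hm1 : 4 * L * K / R₂ ≤ ((m - 1 : ℤ) : ℝ) := by
      rw [hm, add_sub_cancel_right]
      exact Int.le_ceil _
    have hnm2 : nm v ≤ (m - 1) * r := by
      have h5 : Y / K / 2 ≤ r := by linarith
      have h6 : (0 : ℝ) ≤ ((m - 1 : ℤ) : ℝ) := le_trans (by positivity) hm1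
      have h7 : 2 * L / δ n = (4 * L * K / R₂) * (Y / K / 2) := by rw [hY]; field_simp; ring
      have h8 : (4 * L * K / R₂) * (Y / K / 2) ≤ ((m - 1 : ℤ) : ℝ) * r :=
        mul_le_mul hm1 h5 (by positivity) h6
      have h9 : ((nm v : ℤ) : ℝ) ≤ (((m - 1) * r : ℤ) : ℝ) := by
        rw [Int.cast_mul]
        linarith
      exact_mod_cast h9
    obtain ⟨x, hx, hx1, hx2⟩ := grid_cover (by omega : 0 < r) hnm2
    refine ⟨(r * x.1, r * x.2), Finset.mem_filter.2 ⟨Finset.mem_image.2 ⟨x, hx, rfl⟩, ?_⟩, hx1⟩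
    refine hvF.mono ?_
    rw [dist_ps hδ.le]
    have h5 := ps_dist_le v (r * x.1, r * x.2)
    have h6 : ((nm (v - (r * x.1, r * x.2)) : ℤ) : ℝ) ≤ r := by exact_mod_cast hx2
    have h7 : δ n * dist (ps v) (ps (r * x.1, r * x.2)) ≤ δ n * r :=
      mul_le_mul_of_nonneg_left (h5.trans h6) hδ.le
    have h8 : δ n * (r : ℝ) ≤ R₂ := by
      have h9 : (r : ℝ) ≤ R := by exact_mod_cast (by nlinarith : r ≤ R)
      have := mul_le_mul_of_nonneg_left h9 hδ.le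
      linarith
    linarith
  · -- the law
    intro ψn κ₁ hκ₁ E hE hinc
    have h5 := stop_law (M := {ω | ∃ z ∈ Z, rep (Dq (S n) (p n) (k n))
      (thk (p n) (k n) (S n) z R (col z)) ω ∈
        T32 (Dq (S n) (p n) (k n)) (col z) z (2 * r) R ⌊η / δ n⌋₊}) hq0 hp hS hκ₁ hE hinc hε
    have h6 := hpr (N n) (p n) (S n) (k n) hp hS hk0 hn2 cl hcl M hclM ρl hρ0
      (fun i j hi hj hij => Int.le_floor.2 (hclρ i j hi hj hij)) Z col (2 * r) R ⌊η / δ n⌋₊ (by omega) hrR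
      (fun z hz => hcol2 z (hZfar z hz))
    refine h5.trans ?_
    have hcard : (Z.card : ℝ) ≤ G.card := by
      exact_mod_cast (Finset.card_filter_le _ _).trans Finset.card_image_le
    have hfr := frac_bound (m := ⌊η / δ n⌋₊) (R := R) hδ hη hδη hR₂ rfl (by linarith)
    have hR0 : (0 : ℝ) < R := by linarith
    have hx0 : 0 ≤ ((⌊η / δ n⌋₊ : ℝ) + 1) / R := by positivity
    have h7 := pow_bound hx0 hfr hα hβ hη2
    have h8 := h6.trans (arith_bound hC (by positivity) hcard (add_nonneg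
        (Real.rpow_nonneg hx0 _) (Real.rpow_nonneg hx0 _)) h7 hB (sq_nonneg ε)
          (Nat.cast_nonneg _))
    refine (mul_le_mul_of_nonneg_left h8 (inv_pos.2 hε).le).trans (le_of_eq ?_)
    field_simp

end Vale.Agent.P167.N.H174.CT
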